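import Vale.Agent.P343.Bdl.B1
import Mathlib.Data.ZMod.Basic
import Mathlib.Data.Nat.ChineseRemainder
import Mathlib.Data.Nat.Prime.Basic

/-!
The Sakoda-Sipser lower bound over a two-letter alphabet.

The letters of the track alphabet `Sym V` are simulated by words over `Bool`.  The tracks `V` and
one auxiliary track lie on a ring of length `p`, beside a second ring of length `5`, with `p` prime
to `5`.  The letter `true` rotates both rings by one place; the letter `false` exchanges the
places `0` of the two rings, adds the place `1` of the short ring to its place `3` and erases its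
place `4`.
-/

namespace Vale.Agent.P343.H744

open Vale.Agent.P343 Vale.Agent.P343.Box

/-! ### Real-time automata -/

section Automaton

variable {α Q σ : Type}

/-- The word `w` labels a path from `p` to `q`. -/
def Reach (δ : α → Q → Q → Prop) : List α → Q → Q → Prop
  | [], p, q => q = p
  | a :: w, p, q => ∃ r, δ a p r ∧ Reach δ w r q

theorem reach_append (δ : α → Q → Q → Prop) (u v : List α) (p q : Q) :
    Reach δ (u ++ v) p q ↔ ∃ r, Reach δ u p r ∧ Reach δ v r q := by
  induction u generalizing p with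
  | nil =>
    constructor
    · intro h
      exact ⟨p, rfl, h⟩
    · rintro ⟨r, h, h'⟩
      have h1 : r = p := h
      subst h1
      exact h'
  | cons a u ih =>
    constructor
    · rintro ⟨r, h, h'⟩
      obtain ⟨t, h1, h2⟩ := (ih r).1 h'
      exact ⟨t, ⟨r, h, h1⟩, h2⟩
    · rintro ⟨t, ⟨r, h, h1⟩, h2⟩
      exact ⟨r, h, (ih r).2 ⟨t, h1, h2⟩⟩

/-- The transitions of the one-way automaton of a labelled graph. -/
def autStep (δ : α → Q → Q → Prop) (s0 f0 : Q) (e : Option Q → σ) (p : σ) :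
    TapeSym α → σ → Move → Prop
  | TapeSym.leftEnd, q, mv => p = e (some s0) ∧ q = e (some s0) ∧ mv = Move.right
  | TapeSym.letter a, q, mv =>
    mv = Move.right ∧ ∃ x y, δ a x y ∧ p = e (some x) ∧ q = e (some y)
  | TapeSym.rightEnd, q, mv => p = e (some f0) ∧ q = e none ∧ mv = Move.stay

/-- The one-way automaton of a labelled graph. -/
def aut (δ : α → Q → Q → Prop) (s0 f0 : Q) (e : Option Q → σ) : TwoNFA α σ where
  start := e (some s0)
  accept := {e none}
  step := autStep δ s0 f0 e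
  not_beyond_left := by
    rintro p q ⟨_, _, h⟩
    cases h
  not_beyond_right := by
    rintro p q ⟨_, _, h⟩
    cases h

theorem aut_oneWay (δ : α → Q → Q → Prop) (s0 f0 : Q) (e : Option Q → σ) :
    (aut δ s0 f0 e).OneWay := by
  intro p a q h
  cases a with
  | leftEnd => obtain ⟨_, _, h⟩ := (h : _ ∧ _ ∧ _); cases h
  | rightEnd => obtain ⟨_, _, h⟩ := (h : _ ∧ _ ∧ _); cases h
  | letter a => obtain ⟨h, _⟩ := (h : _ ∧ _); cases h

theorem aut_run (δ : α → Q → Q → Prop) (s0 f0 : Q) (e : Option Q → σ) (v : List α) :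
    ∀ (u : List α) (x : Q), Reach δ v x f0 →
      ∃ i, Relation.ReflTransGen ((aut δ s0 f0 e).Next (u ++ v)) (u.length + 1, e (some x))
        (i, e none) := by
  induction v with
  | nil =>
    intro u x hx
    have h1 : f0 = x := hx
    subst h1
    refine ⟨u.length + 1, Relation.ReflTransGen.single (TwoNFA.Next.stay _ _ _ ?_)⟩
    rw [List.append_nil, tape_end]
    exact ⟨rfl, rfl, rfl⟩
  | cons a v ih =>
    rintro u x ⟨y, h1, h2⟩
    obtain ⟨i, h4⟩ := ih (u ++ [a]) y h2
    refine ⟨i, Relation.ReflTransGen.head (b := (u.length + 1 + 1, e (some y))) ?_ ?_⟩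
    · apply TwoNFA.Next.right
      rw [tape_app]
      exact ⟨rfl, x, y, h1, rfl, rfl⟩
    · simpa using h4

theorem aut_next {δ : α → Q → Q → Prop} {s0 f0 : Q} {e : Option Q → σ} {w : List α}
    {c c' : ℕ × σ} (h : (aut δ s0 f0 e).Next w c c') :
    (tape w c.1 = TapeSym.leftEnd ∧ c.2 = e (some s0) ∧ c' = (c.1 + 1, e (some s0))) ∨
    (∃ a x y, tape w c.1 = TapeSym.letter a ∧ δ a x y ∧ c.2 = e (some x) ∧
      c' = (c.1 + 1, e (some y))) ∨
    (tape w c.1 = TapeSym.rightEnd ∧ c.2 = e (some f0) ∧ c' = (c.1, e none)) := by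
  cases h with
  | left t p q h => exact absurd h (aut_oneWay δ s0 f0 e _ _ _)
  | stay t p q h =>
    dsimp only
    cases ht : tape w t with
    | leftEnd =>
      rw [ht] at h
      obtain ⟨_, _, h⟩ := (h : _ ∧ _ ∧ _)
      cases h
    | letter a =>
      rw [ht] at h
      obtain ⟨h, _⟩ := (h : _ ∧ _)
      cases h
    | rightEnd =>
      rw [ht] at h
      obtain ⟨h1, h2, _⟩ := (h : _ ∧ _ ∧ _)
      exact Or.inr (Or.inr ⟨rfl, h1, by rw [h2]⟩)
  | right t p q h =>
    dsimp only
    cases ht : tape w t with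
    | leftEnd =>
      rw [ht] at h
      obtain ⟨h1, h2, _⟩ := (h : _ ∧ _ ∧ _)
      exact Or.inl ⟨rfl, h1, by rw [h2]⟩
    | letter a =>
      rw [ht] at h
      obtain ⟨_, x, y, h1, h2, h3⟩ := h
      exact Or.inr (Or.inl ⟨a, x, y, rfl, h1, h2, by rw [h3]⟩)
    | rightEnd =>
      rw [ht] at h
      obtain ⟨_, _, h⟩ := (h : _ ∧ _ ∧ _)
      cases h

theorem aut_path {δ : α → Q → Q → Prop} {s0 f0 : Q} {e : Option Q → σ}
    (he : Function.Injective e) {w : List α} {c : ℕ × σ} {i : ℕ}
    (h : Relation.ReflTransGen ((aut δ s0 f0 e).Next w) c (i, e none)) :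
    ∀ u v x, w = u ++ v → c = (u.length + 1, e (some x)) → Reach δ v x f0 := by
  induction h using Relation.ReflTransGen.head_induction_on with
  | refl =>
    intro u v x _ hc
    have h1 := he (Prod.mk.inj hc).2
    cases h1
  | head h1 _ ih =>
    intro u v x hw hc
    subst hc
    rcases aut_next h1 with ⟨h2, _, _⟩ | ⟨a, x', y, h2, h3, h4, h5⟩ | ⟨h2, h3, _⟩
    · exfalso
      dsimp only at h2
      cases v with
      | nil => rw [hw, List.append_nil, tape_end] at h2; cases h2
      | cons b v => rw [hw, tape_app] at h2; cases h2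
    · dsimp only at h2 h4 h5
      cases v with
      | nil => rw [hw, List.append_nil, tape_end] at h2; cases h2
      | cons b v =>
        rw [hw, tape_app] at h2
        cases h2
        have h6 := he h4
        cases h6
        exact ⟨y, h3, ih (u ++ [a]) v y (by rw [hw]; simp) (by rw [h5]; simp)⟩
    · dsimp only at h2 h3
      cases v with
      | nil =>
        have h6 := he h3
        cases h6
        rfl
      | cons b v => rw [hw, tape_app] at h2; cases h2

theorem aut_accepts {δ : α → Q → Q → Prop} {s0 f0 : Q} {e : Option Q → σ}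
    (he : Function.Injective e) (w : List α) :
    (aut δ s0 f0 e).Accepts w ↔ Reach δ w s0 f0 := by
  constructor
  · rintro ⟨i, q, h1, h2⟩
    have h3 : q = e none := h2
    subst h3
    rw [Relation.ReflTransGen.cases_head_iff] at h1
    rcases h1 with h1 | ⟨c, h3, h4⟩
    · exfalso
      have h5 := he (Prod.mk.inj h1).2
      cases h5
    · rcases aut_next h3 with ⟨_, _, h6⟩ | ⟨a, x', y, h2, _⟩ | ⟨h2, _⟩
      · subst h6
        exact aut_path he h4 [] w s0 rfl rfl
      · exfalso
        rw [tape_zero] at h2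
        cases h2
      · exfalso
        rw [tape_zero] at h2
        cases h2
  · intro h
    obtain ⟨i, h1⟩ := aut_run δ s0 f0 e w [] s0 h
    refine ⟨i, _, Relation.ReflTransGen.head ?_ h1, rfl⟩
    apply TwoNFA.Next.right
    rw [tape_zero]
    exact ⟨rfl, rfl, rfl⟩

end Automaton

/-! ### Transfer of the lower bound along a substitution -/

theorem card_ge_of_code {V β Q σ : Type} {s0 f0 : V} {t : ℕ} (h : LB V s0 f0 t)
    (δ : β → Q → Q → Prop) (ι : V → Q) (e : Option Q → σ) (he : Function.Injective e)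
    (enc : Sym V → List β)
    (henc : ∀ w : List (Sym V), Reach δ (w.flatMap enc) (ι s0) (ι f0) ↔ RLang s0 f0 w)
    (s : ℕ) (B : TwoNFA β (Fin s)) (hB : B.Deterministic)
    (heq : Equivalent (aut δ (ι s0) (ι f0) e) B) : t ≤ s := by
  have h1 := h (Fin s) ⟨fun a => word (fun b => cell B (TapeSym.letter b)) (enc a),
    cell B TapeSym.leftEnd, cell B TapeSym.rightEnd, B.start⟩
  rw [Fintype.card_fin] at h1
  apply h1
  intro w
  rw [← henc w, ← aut_accepts he, heq (w.flatMap enc), accepts_iff_box hB]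
  show (_ * (w.map fun a => word (fun b => cell B (TapeSym.letter b)) (enc a)).prod * _) _ _ = _ ↔ _
  rw [← word_flatMap]
  rfl

/-! ### Relations realised by words -/

section Real

variable {α Q X : Type} {δ : α → Q → Q → Prop} {ι : X → Q}

/-- The relation `R` on `X`, seen in the graph `δ` by `ι`, is realised by a word. -/
def Real (δ : α → Q → Q → Prop) (ι : X → Q) (R : X → X → Prop) : Prop :=
  ∃ u : List α, ∀ x q, Reach δ u (ι x) q ↔ ∃ y, q = ι y ∧ R x y

theorem Real.one : Real δ ι (fun x y => y = x) := by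
  refine ⟨[], fun x q => ⟨fun h => ⟨x, h, rfl⟩, ?_⟩⟩
  rintro ⟨y, h, h'⟩
  rw [h, h']
  rfl

theorem Real.comp {R R' : X → X → Prop} (h : Real δ ι R) (h' : Real δ ι R') :
    Real δ ι (fun x z => ∃ y, R x y ∧ R' y z) := by
  obtain ⟨u, hu⟩ := h
  obtain ⟨v, hv⟩ := h'
  refine ⟨u ++ v, fun x q => ?_⟩
  rw [reach_append]
  constructor
  · rintro ⟨r, h1, h2⟩
    obtain ⟨y, rfl, h3⟩ := (hu x r).1 h1
    obtain ⟨z, rfl, h4⟩ := (hv y q).1 h2
    exact ⟨z, rfl, y, h3, h4⟩
  · rintro ⟨z, rfl, y, h3, h4⟩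
    exact ⟨ι y, (hu x _).2 ⟨y, rfl, h3⟩, (hv y _).2 ⟨z, rfl, h4⟩⟩

theorem Real.congr {R R' : X → X → Prop} (h : Real δ ι R) (h' : ∀ x y, R x y ↔ R' x y) :
    Real δ ι R' := by
  have h1 : R = R' := funext fun x => funext fun y => propext (h' x y)
  rwa [← h1]

theorem Real.restrict {Y : Type} {j : Y → X} {R : X → X → Prop} {R' : Y → Y → Prop}
    (h : Real δ ι R) (h' : ∀ y x, R (j y) x ↔ ∃ y', x = j y' ∧ R' y y') :
    Real δ (fun y => ι (j y)) R' := by
  obtain ⟨u, hu⟩ := h
  refine ⟨u, fun y q => ?_⟩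
  rw [hu]
  constructor
  · rintro ⟨x, rfl, h1⟩
    obtain ⟨y', rfl, h2⟩ := (h' y x).1 h1
    exact ⟨y', rfl, h2⟩
  · rintro ⟨y', rfl, h2⟩
    exact ⟨j y', rfl, (h' y _).2 ⟨y', rfl, h2⟩⟩

/-- Adding the point `z` whenever a point of a finite set is present. -/
theorem Real.addTo {z : X} (F : Finset X) (h : ∀ x ∈ F, Real δ ι (fun w v => v = w ∨
    (w = x ∧ v = z))) : Real δ ι (fun w v => v = w ∨ (w ∈ F ∧ v = z)) := by
  classical
  induction F using Finset.induction_on with
  | empty => exact Real.one.congr (by simp)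
  | insert x F hx ih =>
    have h1 := h x (Finset.mem_insert_self _ _)
    have h2 := ih (fun y hy => h y (Finset.mem_insert_of_mem hy))
    refine (h1.comp h2).congr ?_
    intro w v
    simp only [Finset.mem_insert]
    constructor
    · rintro ⟨y, rfl | ⟨h3, rfl⟩, h4 | ⟨h4, h5⟩⟩
      · exact Or.inl h4
      · exact Or.inr ⟨Or.inr h4, h5⟩
      · exact Or.inr ⟨Or.inl h3, h4⟩
      · exact Or.inr ⟨Or.inl h3, h5⟩
    · rintro (h3 | ⟨h3 | h3, h4⟩)
      · exact ⟨w, Or.inl rfl, Or.inl h3⟩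
      · exact ⟨z, Or.inr ⟨h3, rfl⟩, Or.inl h4⟩
      · exact ⟨w, Or.inl rfl, Or.inr ⟨h3, h4⟩⟩

/-- Adding all points of a finite set whenever the point `z` is present. -/
theorem Real.addFrom {z : X} (F : Finset X) (h : ∀ x ∈ F, Real δ ι (fun w v => v = w ∨
    (w = z ∧ v = x))) : Real δ ι (fun w v => v = w ∨ (w = z ∧ v ∈ F)) := by
  classical
  induction F using Finset.induction_on with
  | empty => exact Real.one.congr (by simp)
  | insert x F hx ih =>
    have h1 := h x (Finset.mem_insert_self _ _)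
    have h2 := ih (fun y hy => h y (Finset.mem_insert_of_mem hy))
    refine (h2.comp h1).congr ?_
    intro w v
    simp only [Finset.mem_insert]
    constructor
    · rintro ⟨y, rfl | ⟨h3, h6⟩, h4 | ⟨h4, h5⟩⟩
      · exact Or.inl h4
      · exact Or.inr ⟨h4, Or.inl h5⟩
      · subst h4
        exact Or.inr ⟨h3, Or.inr h6⟩
      · exact Or.inr ⟨h3, Or.inl h5⟩
    · rintro (h3 | ⟨h3, h4 | h4⟩)
      · exact ⟨w, Or.inl rfl, Or.inl h3⟩
      · exact ⟨w, Or.inl rfl, Or.inr ⟨h3, h4⟩⟩
      · exact ⟨v, Or.inr ⟨h3, h4⟩, Or.inl rfl⟩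

/-- Erasing all points of a finite set. -/
theorem Real.erase (F : Finset X) (h : ∀ x ∈ F, Real δ ι (fun w v => v = w ∧ w ≠ x)) :
    Real δ ι (fun w v => v = w ∧ w ∉ F) := by
  classical
  induction F using Finset.induction_on with
  | empty => exact Real.one.congr (by simp)
  | insert x F hx ih =>
    have h1 := h x (Finset.mem_insert_self _ _)
    have h2 := ih (fun y hy => h y (Finset.mem_insert_of_mem hy))
    refine (h1.comp h2).congr ?_
    intro w v
    simp only [Finset.mem_insert]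
    constructor
    · rintro ⟨y, ⟨rfl, h3⟩, h4, h5⟩
      exact ⟨h4, fun h6 => h6.elim h3 h5⟩
    · rintro ⟨h3, h4⟩
      exact ⟨w, ⟨rfl, fun h5 => h4 (Or.inl h5)⟩, h3, fun h5 => h4 (Or.inr h5)⟩

end Real

/-! ### The two-letter track automaton -/

section Tracks

variable {p : ℕ}

/-- The places of the tracks: a long ring and a ring of length five. -/
abbrev Pl (p : ℕ) : Type := ZMod p ⊕ ZMod 5

/-- Rotation of both rings. -/
def rot (i : ZMod p) (k : ZMod 5) : Pl p → Pl p := Sum.map (fun x => x + i) (fun y => y + k)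

/-- Exchange of the place `i` of the long ring with the place `0` of the short ring, together
with the copying of the place `1` of the short ring into its place `3` and the erasing of its
place `4`. -/
def Hc (i : ZMod p) (q q' : Pl p) : Prop :=
  (q' = Equiv.swap (Sum.inl i) (Sum.inr 0) q ∧ q ≠ Sum.inr 4) ∨ (q = Sum.inr 1 ∧ q' = Sum.inr 3)

/-- The two letters: `true` rotates both rings by one place; `false` is `Hc 0`. -/
def dl (p : ℕ) : Bool → Pl p → Pl p → Prop
  | true, q, q' => q' = rot 1 1 q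
  | false, q, q' => Hc 0 q q'

theorem real_rot_nat (m : ℕ) : Real (dl p) id (fun q q' => q' = rot (m : ZMod p) (m : ZMod 5) q) := by
  induction m with
  | zero =>
    refine Real.one.congr ?_
    intro q q'
    have h : rot ((0 : ℕ) : ZMod p) ((0 : ℕ) : ZMod 5) q = q := by
      cases q <;> simp [rot]
    rw [h]
  | succ m ih =>
    have h1 : Real (dl p) id (fun q q' => q' = rot 1 1 q) := by
      refine ⟨[true], fun q q' => ?_⟩
      constructor
      · rintro ⟨r, h1, h2⟩
        have h3 : r = rot 1 1 q := h1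
        subst h3
        exact ⟨q', rfl, h2⟩
      · rintro ⟨y, rfl, rfl⟩
        exact ⟨_, rfl, rfl⟩
    refine (ih.comp h1).congr ?_
    intro q q'
    have h : rot ((m + 1 : ℕ) : ZMod p) ((m + 1 : ℕ) : ZMod 5) q =
        rot 1 1 (rot (m : ZMod p) (m : ZMod 5) q) := by
      cases q <;> simp [rot, add_assoc]
    rw [h]
    constructor
    · rintro ⟨y, rfl, rfl⟩
      rfl
    · rintro rfl
      exact ⟨_, rfl, rfl⟩

theorem real_rot (hp : p.Coprime 5) (i : ZMod p) (k : ZMod 5) :
    Real (dl p) id (fun q q' => q' = rot i k q) := by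
  obtain ⟨m, h1, h2⟩ : ∃ m : ℕ, (m : ZMod p) = i ∧ (m : ZMod 5) = k := by
    have hp0 : p ≠ 0 := by
      rintro rfl
      simp at hp
    have : NeZero p := ⟨hp0⟩
    obtain ⟨m, hm1, hm2⟩ := Nat.chineseRemainder hp i.val k.val
    refine ⟨m, ?_, ?_⟩
    · rw [(ZMod.natCast_eq_natCast_iff _ _ _).2 hm1, ZMod.natCast_zmod_val]
    · rw [(ZMod.natCast_eq_natCast_iff _ _ _).2 hm2, ZMod.natCast_zmod_val]
  rw [← h1, ← h2]
  exact real_rot_nat m

theorem real_Hc (hp : p.Coprime 5) (i : ZMod p) : Real (dl p) id (Hc i) := by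
  have h1 : Real (dl p) id (Hc (0 : ZMod p)) := by
    refine ⟨[false], fun q q' => ?_⟩
    constructor
    · rintro ⟨r, h1, h2⟩
      have h3 : q' = r := h2
      subst h3
      exact ⟨q', rfl, h1⟩
    · rintro ⟨y, rfl, h⟩
      exact ⟨_, h, rfl⟩
  refine (((real_rot hp (-i) 0).comp h1).comp (real_rot hp i 0)).congr ?_
  intro q q'
  have hr : ∀ q : Pl p, rot i 0 (rot (-i) 0 q) = q := by
    intro q
    cases q <;> simp [rot]
  have hinj : Function.Injective (rot i 0) := by
    intro a b h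
    cases a <;> cases b <;> simp [rot] at h ⊢ <;> exact h
  have hsw : ∀ q : Pl p, rot i 0 (Equiv.swap (Sum.inl 0) (Sum.inr 0) q) =
      Equiv.swap (Sum.inl i) (Sum.inr 0) (rot i 0 q) := by
    intro q
    have h0 : rot i 0 (Sum.inl 0) = (Sum.inl i : Pl p) := by simp [rot]
    have h0' : rot i 0 (Sum.inr 0) = (Sum.inr 0 : Pl p) := by simp [rot]
    by_cases h2 : q = Sum.inl 0
    · rw [h2, Equiv.swap_apply_left, h0, Equiv.swap_apply_left, h0']
    · by_cases h3 : q = Sum.inr 0
      · rw [h3, Equiv.swap_apply_right, h0', Equiv.swap_apply_right, h0]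
      · rw [Equiv.swap_apply_of_ne_of_ne h2 h3, Equiv.swap_apply_of_ne_of_ne]
        · rw [← h0]
          exact fun h => h2 (hinj h)
        · rw [← h0']
          exact fun h => h3 (hinj h)
  have hinr : ∀ (q : Pl p) (c : ZMod 5), rot (-i) 0 q = Sum.inr c ↔ q = Sum.inr c := by
    intro q c
    cases q <;> simp [rot]
  constructor
  · rintro ⟨z, ⟨_, rfl, h2⟩, rfl⟩
    rcases h2 with ⟨h2, h3⟩ | ⟨h2, h3⟩
    · left
      rw [h2, hsw, hr]
      exact ⟨rfl, fun h => h3 ((hinr _ _).2 h)⟩
    · right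
      rw [h3]
      exact ⟨(hinr _ _).1 h2, by simp [rot]⟩
  · rintro (⟨h2, h3⟩ | ⟨h2, h3⟩)
    · refine ⟨_, ⟨_, rfl, Or.inl ⟨rfl, fun h => h3 ((hinr _ _).1 h)⟩⟩, ?_⟩
      rw [hsw, hr, h2]
    · exact ⟨Sum.inr 3, ⟨_, rfl, Or.inr ⟨(hinr _ _).2 h2, rfl⟩⟩, by rw [h3]; simp [rot]⟩

theorem hc_self (i : ZMod p) (q : Pl p) : Hc i (Sum.inl i) q ↔ q = Sum.inr 0 := by
  simp [Hc]

theorem hc_ne {i w : ZMod p} (h : w ≠ i) (q : Pl p) : Hc i (Sum.inl w) q ↔ q = Sum.inl w := by
  unfold Hc
  rw [Equiv.swap_apply_of_ne_of_ne (by simpa using h) (by simp)]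
  simp

theorem hc_zero (i : ZMod p) (q : Pl p) : Hc i (Sum.inr 0) q ↔ q = Sum.inl i := by
  have h1 : (0 : ZMod 5) ≠ 4 := by decide
  have h2 : (0 : ZMod 5) ≠ 1 := by decide
  simp [Hc, h1, h2]

theorem hc_one (i : ZMod p) (q : Pl p) :
    Hc i (Sum.inr 1) q ↔ (q = Sum.inr 1 ∨ q = Sum.inr 3) := by
  have h1 : (1 : ZMod 5) ≠ 4 := by decide
  have h2 : (1 : ZMod 5) ≠ 0 := by decide
  unfold Hc
  rw [Equiv.swap_apply_of_ne_of_ne (by simp) (by simpa using h2)]
  simp [h1]

theorem hc_two (i : ZMod p) (q : Pl p) : Hc i (Sum.inr 2) q ↔ q = Sum.inr 2 := by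
  have h1 : (2 : ZMod 5) ≠ 4 := by decide
  have h2 : (2 : ZMod 5) ≠ 0 := by decide
  have h3 : (2 : ZMod 5) ≠ 1 := by decide
  unfold Hc
  rw [Equiv.swap_apply_of_ne_of_ne (by simp) (by simpa using h2)]
  simp [h1, h3]

theorem hc_three (i : ZMod p) (q : Pl p) : Hc i (Sum.inr 3) q ↔ q = Sum.inr 3 := by
  have h1 : (3 : ZMod 5) ≠ 4 := by decide
  have h2 : (3 : ZMod 5) ≠ 0 := by decide
  have h3 : (3 : ZMod 5) ≠ 1 := by decide
  unfold Hc
  rw [Equiv.swap_apply_of_ne_of_ne (by simp) (by simpa using h2)]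
  simp [h1, h3]

theorem hc_four (i : ZMod p) (q : Pl p) : ¬ Hc i (Sum.inr 4) q := by
  have h1 : (4 : ZMod 5) ≠ 1 := by decide
  simp [Hc, h1]

theorem rot_inl (k : ZMod 5) (w : ZMod p) : rot 0 k (Sum.inl w) = Sum.inl w := by simp [rot]

theorem rot_inr (k c : ZMod 5) : (rot 0 k (Sum.inr c) : Pl p) = Sum.inr (c + k) := rfl

/-- Erasing a place of the long ring. -/
theorem real_kill (hp : p.Coprime 5) (u : ZMod p) :
    Real (dl p) Sum.inl (fun w v => v = w ∧ w ≠ u) := by
  have h := ((real_Hc hp u).comp (real_rot hp 0 4)).comp (real_Hc hp u)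
  refine Real.restrict (j := Sum.inl) h ?_
  intro w q
  have e4 : (0 + 4 : ZMod 5) = 4 := by decide
  by_cases hw : w = u
  · subst hw
    simp only [hc_self, exists_eq_left, rot_inr, e4, hc_four]
    simp
  · simp only [hc_ne hw, exists_eq_left, rot_inl]
    constructor
    · rintro rfl
      exact ⟨w, rfl, rfl, hw⟩
    · rintro ⟨y, rfl, rfl, _⟩
      rfl

/-- Adding a place of the long ring to another one. -/
theorem real_copy (hp : p.Coprime 5) {x y : ZMod p} (hxy : x ≠ y) :
    Real (dl p) Sum.inl (fun w v => v = w ∨ (w = x ∧ v = y)) := by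
  have h := ((((((((real_Hc hp x).comp (real_rot hp 0 3)).comp (real_Hc hp y)).comp
    (real_rot hp 0 3)).comp (real_Hc hp x)).comp (real_rot hp 0 4)).comp (real_Hc hp x)).comp
    (real_rot hp 0 3)).comp (real_Hc hp y)
  refine Real.restrict (j := Sum.inl) h ?_
  intro w q
  have e1 : (0 + 3 : ZMod 5) = 3 := by decide
  have e2 : (3 + 3 : ZMod 5) = 1 := by decide
  have e3 : (1 + 4 : ZMod 5) = 0 := by decide
  have e4 : (3 + 4 : ZMod 5) = 2 := by decide
  have e5 : (2 + 3 : ZMod 5) = 0 := by decide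
  by_cases hw : w = x
  · subst hw
    simp only [hc_self, exists_eq_left, rot_inr, e1, hc_three, e2, hc_one, or_and_right,
      exists_or, e3, e4, hc_zero, hc_two, rot_inl, e5, hc_ne hxy]
    constructor
    · rintro (rfl | rfl)
      · exact ⟨w, rfl, Or.inl rfl⟩
      · exact ⟨y, rfl, Or.inr ⟨trivial, rfl⟩⟩
    · rintro ⟨y', rfl, rfl | ⟨_, rfl⟩⟩
      · exact Or.inl rfl
      · exact Or.inr rfl
  · by_cases hw' : w = y
    · subst hw'
      simp only [hc_self, exists_eq_left, rot_inr, e1, hc_three, hc_ne hw, rot_inl,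
        e4, hc_two, e5, hc_zero]
      constructor
      · rintro rfl
        exact ⟨w, rfl, Or.inl rfl⟩
      · rintro ⟨y', rfl, rfl | ⟨h, _⟩⟩
        · rfl
        · exact absurd h hw
    · simp only [hc_ne hw, hc_ne hw', exists_eq_left, rot_inl]
      constructor
      · rintro rfl
        exact ⟨w, rfl, Or.inl rfl⟩
      · rintro ⟨y', rfl, rfl | ⟨h, _⟩⟩
        · rfl
        · exact absurd h hw

end Tracks

/-- All letters of the track alphabet are realised. -/
theorem letters {V : Type} [Fintype V] {p : ℕ} (hp : p.Coprime 5) (g : Option V ↪ ZMod p)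
    (a : Sym V) : Real (dl p) (fun v => Sum.inl (g (some v)))
        (fun x y => (y = x ∨ (a.src x = true ∧ a.dst y = true)) ∧ a.keep y = true) := by
  classical
  have hcp : ∀ x y : Option V, x ≠ y →
      Real (dl p) (fun w : Option V => Sum.inl (g w)) (fun w v => v = w ∨ (w = x ∧ v = y)) := by
    intro x y hxy
    refine (real_copy hp (g.injective.ne hxy)).restrict (j := g) ?_
    intro w v
    constructor
    · rintro (rfl | ⟨h3, rfl⟩)
      · exact ⟨w, rfl, Or.inl rfl⟩
      · exact ⟨y, rfl, Or.inr ⟨g.injective h3, rfl⟩⟩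
    · rintro ⟨y', rfl, rfl | ⟨rfl, rfl⟩⟩
      · exact Or.inl rfl
      · exact Or.inr ⟨rfl, rfl⟩
  have hkl : ∀ x : Option V,
      Real (dl p) (fun w : Option V => Sum.inl (g w)) (fun w v => v = w ∧ w ≠ x) := by
    intro x
    refine (real_kill hp (g x)).restrict (j := g) ?_
    intro w v
    constructor
    · rintro ⟨rfl, h3⟩
      exact ⟨w, rfl, rfl, fun h => h3 (by rw [h])⟩
    · rintro ⟨y', rfl, rfl, h3⟩
      exact ⟨rfl, fun h => h3 (g.injective h)⟩
  have s1 := Real.addTo (z := (none : Option V))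
    (Finset.univ.filter (fun x : Option V => ∃ v, x = some v ∧ a.src v = true))
    (fun x hx => by
      obtain ⟨v, rfl, _⟩ := (Finset.mem_filter.1 hx).2
      exact hcp (some v) none (by simp))
  have s2 := Real.addFrom (z := (none : Option V))
    (Finset.univ.filter (fun x : Option V => ∃ v, x = some v ∧ a.dst v = true))
    (fun x hx => by
      obtain ⟨v, rfl, _⟩ := (Finset.mem_filter.1 hx).2
      exact hcp none (some v) (by simp))
  have s3 := Real.erase
    (Finset.univ.filter (fun x : Option V => x = none ∨ ∃ v, x = some v ∧ a.keep v = false))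
    (fun x _ => hkl x)
  refine Real.restrict (j := some) ((s1.comp s2).comp s3) ?_
  intro x v
  simp only [Finset.mem_filter, Finset.mem_univ, true_and]
  constructor
  · rintro ⟨y, ⟨t, ht1, ht2⟩, rfl, h4⟩
    rw [not_or] at h4
    obtain ⟨y, rfl⟩ := Option.ne_none_iff_exists'.1 h4.1
    have h5 : a.keep y = true := by
      by_contra h6
      exact h4.2 ⟨y, rfl, by simpa using h6⟩
    refine ⟨y, rfl, ?_, h5⟩
    rcases ht1 with rfl | ⟨⟨x', hx', h6⟩, rfl⟩
    · rcases ht2 with h7 | ⟨h7, _⟩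
      · exact Or.inl (Option.some_injective _ h7)
      · cases h7
    · rcases ht2 with h7 | ⟨_, y', hy', h8⟩
      · cases h7
      · right
        have h9 := Option.some_injective _ hx'
        have h10 := Option.some_injective _ hy'
        subst h9
        subst h10
        exact ⟨h6, h8⟩
  · rintro ⟨y, rfl, h3, h4⟩
    refine ⟨some y, ?_, rfl, ?_⟩
    · rcases h3 with rfl | ⟨h3, h5⟩
      · exact ⟨some y, Or.inl rfl, Or.inl rfl⟩
      · exact ⟨none, Or.inr ⟨⟨x, rfl, h3⟩, rfl⟩, Or.inr ⟨rfl, y, rfl, h5⟩⟩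
    · rintro (h5 | ⟨y', h5, h6⟩)
      · cases h5
      · have h7 := Option.some_injective _ h5
        subst h7
        rw [h4] at h6
        cases h6

/-- The coding of words. -/
theorem coding {V : Type} {Q β : Type} {δ : β → Q → Q → Prop} {ι : V → Q}
    {enc : Sym V → List β}
    (h : ∀ (a : Sym V) x q, Reach δ (enc a) (ι x) q ↔ ∃ y, q = ι y ∧
      ((y = x ∨ (a.src x = true ∧ a.dst y = true)) ∧ a.keep y = true))
    (w : List (Sym V)) : ∀ x q, Reach δ (w.flatMap enc) (ι x) q ↔
      ∃ y, q = ι y ∧ y ∈ acts w {x} := by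
  induction w with
  | nil =>
    intro x q
    constructor
    · intro h1
      exact ⟨x, h1, rfl⟩
    · rintro ⟨y, rfl, h1⟩
      have h2 : y = x := h1
      rw [h2]
      rfl
  | cons a w ih =>
    intro x q
    rw [List.flatMap_cons, reach_append]
    constructor
    · rintro ⟨r, h1, h2⟩
      obtain ⟨y, rfl, h3, h4⟩ := (h a x r).1 h1
      obtain ⟨z, rfl, h5⟩ := (ih y q).1 h2
      refine ⟨z, rfl, ?_⟩
      show z ∈ acts w (a.act {x})
      refine acts_mono w ?_ h5
      rintro _ rfl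
      refine ⟨?_, h4⟩
      rcases h3 with h3 | ⟨h3, h6⟩
      · exact Or.inl h3
      · exact Or.inr ⟨h6, x, rfl, h3⟩
    · rintro ⟨z, rfl, h1⟩
      obtain ⟨y, ⟨h2, h3⟩, h4⟩ := acts_single (S := a.act {x}) w h1
      refine ⟨ι y, (h a x _).2 ⟨y, rfl, ?_, h3⟩, (ih y _).2 ⟨z, rfl, h4⟩⟩
      rcases h2 with h2 | ⟨h2, x', hx', h5⟩
      · exact Or.inl h2
      · have h6 : x' = x := hx'
        subst h6
        exact Or.inr ⟨h5, h2⟩

/-! ### Arbitrary alphabets with at least two letters -/

/-- Renaming of the letters of a labelled graph. -/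
def rename {α β Q : Type} (f : β → α) (δ : β → Q → Q → Prop) (c : α) (p q : Q) : Prop :=
  ∃ t, c = f t ∧ δ t p q

theorem reach_rename {α β Q : Type} {f : β → α} (hf : Function.Injective f)
    (δ : β → Q → Q → Prop) (u : List β) (p q : Q) :
    Reach (rename f δ) (u.map f) p q ↔ Reach δ u p q := by
  induction u generalizing p with
  | nil => exact Iff.rfl
  | cons b u ih =>
    constructor
    · rintro ⟨r, ⟨t, h1, h2⟩, h3⟩
      have h4 := hf h1
      subst h4
      exact ⟨r, h2, (ih r).1 h3⟩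
    · rintro ⟨r, h2, h3⟩
      exact ⟨r, ⟨b, rfl, h2⟩, (ih r).2 h3⟩

theorem Real.rename {α β Q X : Type} {f : β → α} (hf : Function.Injective f)
    {δ : β → Q → Q → Prop} {ι : X → Q} {R : X → X → Prop} (h : Real δ ι R) :
    Real (rename f δ) ι R := by
  obtain ⟨u, hu⟩ := h
  exact ⟨u.map f, fun x q => (reach_rename hf δ u _ _).trans (hu x q)⟩

/-- Over every alphabet with at least two letters, one-way nondeterministic automata with `n`
states can need exponentially many (in `n`) states in every equivalent two-way deterministic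
automaton. -/
theorem nontrivial_lower (α : Type) [Nontrivial α] (n j : ℕ) (hn : 17 * j + 27 ≤ n) :
    ∃ A : TwoNFA α (Fin n), A.OneWay ∧
      ∀ (s : ℕ) (B : TwoNFA α (Fin s)), B.Deterministic → Equivalent A B → 2 ^ j ≤ s := by
  obtain ⟨a, b, hab⟩ := exists_pair_ne α
  obtain ⟨f, hf⟩ : ∃ f : Bool → α, Function.Injective f := by
    refine ⟨fun t => if t then a else b, ?_⟩
    intro s t h
    cases s <;> cases t <;> simp at h ⊢
    · exact hab h.symm
    · exact hab h
  obtain ⟨p, hp, hp1, hp2⟩ : ∃ p : ℕ, p.Coprime 5 ∧ 17 * j + 20 ≤ p ∧ p ≤ 17 * j + 21 := by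
    have h5 : Nat.Prime 5 := by norm_num
    by_cases h : 5 ∣ 17 * j + 20
    · refine ⟨17 * j + 21, ?_, by omega, le_rfl⟩
      exact ((Nat.Prime.coprime_iff_not_dvd h5).2 (by omega)).symm
    · exact ⟨17 * j + 20, ((Nat.Prime.coprime_iff_not_dvd h5).2 h).symm, le_rfl, by omega⟩
  have : NeZero p := ⟨by omega⟩
  obtain ⟨g⟩ : Nonempty (Option (Fin (17 * j + 19)) ↪ ZMod p) := by
    apply Function.Embedding.nonempty_of_card_le
    rw [Fintype.card_option, Fintype.card_fin, ZMod.card]
    omega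
  have hδ := fun a => (letters hp g a).rename hf
  choose enc henc using hδ
  obtain ⟨e⟩ : Nonempty (Option (Pl p) ↪ Fin n) := by
    apply Function.Embedding.nonempty_of_card_le
    rw [Fintype.card_option, Fintype.card_sum, ZMod.card, ZMod.card, Fintype.card_fin]
    omega
  have hne : (⟨0, by omega⟩ : Fin (17 * j + 19)) ≠ ⟨1, by omega⟩ := by
    intro h
    have h1 := congrArg Fin.val h
    simp at h1
  have h := lin_LB lin_words (j + 1) (Fin (17 * j + 19)) ⟨0, by omega⟩ ⟨1, by omega⟩ hne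
    (by rw [Fintype.card_fin]; omega)
  refine ⟨aut (rename f (dl p)) (Sum.inl (g (some ⟨0, by omega⟩)))
    (Sum.inl (g (some ⟨1, by omega⟩))) e, aut_oneWay _ _ _ _, ?_⟩
  intro s B hB heq
  refine card_ge_of_code h (rename f (dl p)) (fun v => Sum.inl (g (some v))) e e.injective enc ?_
    s B hB heq
  intro w
  rw [coding (ι := fun v => Sum.inl (g (some v))) henc w]
  constructor
  · rintro ⟨y, h1, h2⟩
    have h3 := Option.some_injective _ (g.injective (Sum.inl_injective h1))
    rw [← h3] at h2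
    exact h2
  · intro h1
    exact ⟨_, rfl, h1⟩

/-- No polynomial bounds the cost over a fixed alphabet with at least two letters. -/
theorem nontrivial_no_polynomial_oneWay (α : Type) [Nontrivial α] :
    ¬ ∃ p : Polynomial ℝ, ∀ (n : ℕ) (A : TwoNFA α (Fin n)), A.OneWay →
      ∃ s : ℕ, (s : ℝ) ≤ p.eval (n : ℝ) ∧
        ∃ B : TwoNFA α (Fin s), B.Deterministic ∧ Equivalent A B := by
  rintro ⟨p, hp⟩
  obtain ⟨j, hj⟩ := poly_lt_two_pow
    (p.comp (Polynomial.C 17 * Polynomial.X + Polynomial.C 27))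
  obtain ⟨A, hA, hlow⟩ := nontrivial_lower α (17 * j + 27) j le_rfl
  obtain ⟨s, hs, B, hB, heq⟩ := hp _ A hA
  have h1 : ((2 : ℝ) ^ j) ≤ s := by exact_mod_cast hlow s B hB heq
  have h2 : (p.comp (Polynomial.C 17 * Polynomial.X + Polynomial.C 27)).eval (j : ℝ) =
      p.eval ((17 * j + 27 : ℕ) : ℝ) := by
    rw [Polynomial.eval_comp]
    simp only [Polynomial.eval_add, Polynomial.eval_mul, Polynomial.eval_C,
      Polynomial.eval_X, Nat.cast_add, Nat.cast_mul, Nat.cast_ofNat]
  rw [h2] at hj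
  linarith

end Vale.Agent.P343.H744
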