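import Vale.Agent.P343.H744.Tower

/-!
The top of the recursion (`TopStmt` of `H741/Iface.lean`).
-/

namespace Vale.Agent.P343.H744

open Vale.Agent.P343.H741

theorem acts_app {V : Type} (u v : List (Box.Sym V)) (S : Set V) :
    Box.acts (u ++ v) S = Box.acts v (Box.acts u S) := by
  induction u generalizing S with
  | nil => rfl
  | cons a u ih => exact ih _

theorem acts_replicate_id {V : Type} (k : ℕ) (S : Set V) :
    Box.acts (List.replicate k (Box.idSym V)) S = S := by
  induction k with
  | zero => rfl
  | succ k ih =>
    show Box.acts (List.replicate k (Box.idSym V)) ((Box.idSym V).act S) = S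
    rw [Box.idSym_act, ih]

/-- The block of a letter. -/
def blk (V : Type) (k : ℕ) (s : Box.Sym V) : List (Box.Sym V) :=
  List.replicate k (Box.idSym V) ++ s :: List.replicate (2 * k - 1) (Box.idSym V)

theorem acts_blk {V : Type} (k : ℕ) (s : Box.Sym V) (S : Set V) :
    Box.acts (blk V k s) S = s.act S := by
  unfold blk
  rw [acts_app, acts_replicate_id]
  exact acts_replicate_id _ _

theorem acts_flat {V : Type} (k : ℕ) (w : List (Box.Sym V)) (S : Set V) :
    Box.acts (w.flatMap (blk V k)) S = Box.acts w S := by
  induction w generalizing S with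
  | nil => rfl
  | cons a w ih =>
    rw [List.flatMap_cons, acts_app, acts_blk, ih]
    rfl

theorem prod_flat {A P : Type} [Monoid P] (G : A → P) (f : A → List A) (w : List A) :
    ((w.flatMap f).map G).prod = (w.map fun s => ((f s).map G).prod).prod := by
  induction w with
  | nil => rfl
  | cons a w ih =>
    rw [List.flatMap_cons, List.map_append, List.prod_append, ih, List.map_cons, List.prod_cons]

/-- Row T: the top of the recursion. -/
theorem top : TopStmt := by
  intro V s0 f0 Q _ M hM
  classical
  obtain ⟨k, hk, hidem⟩ := exists_pow_idem (M.G (Box.idSym V))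
  set g := M.G (Box.idSym V) with hg
  have hblk : ∀ s, ((blk V k s).map M.G).prod = g ^ k * (M.G s * g ^ (2 * k - 1)) := by
    intro s
    unfold blk
    rw [List.map_append, List.prod_append, List.map_replicate, List.prod_replicate, List.map_cons,
      List.prod_cons, List.map_replicate, List.prod_replicate]
  have hid : g ^ k * (g * g ^ (2 * k - 1)) = g ^ k := by
    rw [← pow_succ', show 2 * k - 1 + 1 = k + k by omega, pow_add, hidem, hidem]
  have hR : g ^ (2 * k - 1) * g ^ k = g ^ (2 * k - 1) := by
    rw [show 2 * k - 1 = (k - 1) + k by omega, pow_add, mul_assoc, hidem]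
  refine ⟨⟨fun s => ((blk V k s).map M.G).prod, M.bl, M.br, M.start, M.fin⟩, ⟨?_, ?_, ?_,
    fun _ => Cls (((blk V k (Box.idSym V)).map M.G).prod), fun _ => ?_, ?_⟩, ?_⟩
  · show ((blk V k _).map M.G).prod * ((blk V k _).map M.G).prod = ((blk V k _).map M.G).prod
    rw [hblk, ← hg, hid, hidem]
  · intro s
    show ((blk V k _).map M.G).prod * ((blk V k _).map M.G).prod = ((blk V k _).map M.G).prod
    rw [hblk, hblk, ← hg, hid, ← mul_assoc, hidem]
  · intro s
    show ((blk V k _).map M.G).prod * ((blk V k _).map M.G).prod = ((blk V k _).map M.G).prod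
    rw [hblk, hblk, ← hg, hid, mul_assoc, mul_assoc, hR]
  · have : Cls (((blk V k (Box.idSym V)).map M.G).prod) ⊆
        (fun p : Bool × Q => (p.1, cl (((blk V k (Box.idSym V)).map M.G).prod) p.1 p.2)) ''
          Set.univ := by
      rintro ⟨d, κ⟩ ⟨x, _, h2⟩
      exact ⟨(d, x), trivial, Prod.ext rfl h2.symm⟩
    refine (Set.ncard_le_ncard this (Set.toFinite _)).trans ((Set.ncard_image_le
      (Set.toFinite _)).trans ?_)
    rw [Set.ncard_univ, Nat.card_prod, Nat.card_eq_fintype_card, Fintype.card_bool]
  · intro s hkeep d x hx h1 h2
    have hs : s = Box.idSym V := by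
      cases s with
      | mk a b c =>
        have e1 : a = fun _ => false := by
          funext v
          by_contra hv
          exact h1 v (by simpa using hv) ⟨x, hx, rfl⟩
        have e2 : b = fun _ => false := by
          funext v
          by_contra hv
          exact h2 v (by simpa using hv) ⟨x, hx, rfl⟩
        have e3 : c = fun _ => true := by
          funext v
          exact hkeep v
        subst e1 e2 e3
        rfl
    subst hs
    exact hx
  · intro w
    have h1 := hM (w.flatMap (blk V k))
    unfold BAut.Acc Box.RLang at h1 ⊢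
    rw [prod_flat, acts_flat] at h1
    exact h1

end Vale.Agent.P343.H744
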