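import Vale.Agent.P343.H741.Iface

/-!
The bottom of the recursion, the tower and the lower bound (rows B and F of `H741/Iface.lean`).
-/

namespace Vale.Agent.P343.H744

open Vale.Agent.P343.H741

/-- A box automaton accepts more if its boxes are larger. -/
theorem le_of_pts {Q : Type} (hP : PtsFacts Q) {e f : NB Q} (he : e * e = e) (h1 : e * f = f)
    (h2 : f * e = f) (hX : ∀ d x, Pt e d x → X e f d x x) :
    ∀ c c', e c c' → f c c' := by
  rintro ⟨d, a⟩ ⟨d', b⟩ h
  by_cases hd : d = d'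
  · subst hd
    obtain ⟨z, hz, hv⟩ := hP.via1 he h
    exact hP.via2 he h1 h2 hv (hX d z hz)
  · exact hP.bounce h1 h2 hd h

/-- Row B: the bottom of the recursion. -/
theorem base (hP : ∀ (Q : Type) [Finite Q], PtsFacts Q) : BaseStmt := by
  intro V s0 f0 hne Q _ M hM a hN
  classical
  obtain ⟨he, hl, hr, Act, hAct, hX⟩ := hN
  by_contra ha
  have ha0 : a = 0 := by omega
  have hemp : ∀ t, Act t = ∅ := by
    intro t
    have h1 := hAct t
    rw [ha0] at h1
    exact (Set.ncard_eq_zero (Set.toFinite _)).1 (by omega)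
  let a1 : Box.Sym V := ⟨fun x => decide (x = s0), fun x => decide (x = f0), fun _ => true⟩
  have hle := le_of_pts (hP Q) he (hl a1) (hr a1) fun d x hx =>
    hX a1 (fun _ => rfl) d x hx (fun v _ => by rw [hemp]; exact Set.notMem_empty _)
      (fun v _ => by rw [hemp]; exact Set.notMem_empty _)
  have h1 : ¬ M.Acc [a1] := by
    rw [hM, not_not]
    show f0 ∈ a1.act {s0}
    refine ⟨Or.inr ⟨?_, s0, rfl, ?_⟩, rfl⟩
    · show decide (f0 = f0) = true
      simp
    · show decide (s0 = s0) = true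
      simp
  have h2 : M.Acc [Box.idSym V] := by
    rw [hM]
    show ¬ f0 ∈ (Box.idSym V).act {s0}
    rw [Box.idSym_act]
    exact fun h => hne (by simpa using h.symm)
  apply h1
  unfold BAut.Acc at h2 ⊢
  refine mul_mono (fun c c' h => mul_mono (fun _ _ h => h) (fun c c' h => ?_) h)
    (fun _ _ h => h) h2
  rw [List.map_cons, List.map_nil, List.prod_cons, List.prod_nil, mul_one] at h ⊢
  exact hle _ _ h

/-- The lower bound for box automata on `33 * j + 2` tracks. -/
theorem tower (hS : StepStmt) (hB : BaseStmt) (j : ℕ) :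
    ∃ (V : Type) (_ : Fintype V) (s0 f0 : V), s0 ≠ f0 ∧ Fintype.card V = 33 * j + 2 ∧
    ∀ (Q : Type) [Finite Q] (M : BAut (Box.Sym V) Q),
      (∀ w, M.Acc w ↔ ¬ Box.RLang s0 f0 w) → ∀ a, Norm M.G a → 2 ^ j ≤ a := by
  induction j with
  | zero =>
    refine ⟨Bool, inferInstance, false, true, by simp, by simp, ?_⟩
    intro Q _ M hM a ha
    rw [pow_zero]
    exact hB Bool false true (by simp) Q M hM a ha
  | succ j ih =>
    obtain ⟨V, hV, s0, f0, hne, hcard, hrec⟩ := ih
    refine ⟨Box.Ext V 16, inferInstance, Sum.inl s0, Sum.inl f0,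
      fun h => hne (Sum.inl_injective h), ?_, ?_⟩
    · rw [Fintype.card_sum, Fintype.card_sum, Fintype.card_sum, Fintype.card_fin,
        Fintype.card_unit, hcard]
      ring
    · intro Q _ M hM a ha
      obtain ⟨M1, a', h1, h2, h3⟩ := hS V s0 f0 16 (by norm_num) Q M hM a ha
      have h4 := hrec Q M1 h3 a' h1
      rw [pow_succ]
      omega

/-- The lower bound for box automata. -/
theorem lin_LB (hS : StepStmt) (hB : BaseStmt) (hT : TopStmt) (j : ℕ) (V : Type) [Fintype V]
    (s0 f0 : V) (hne : s0 ≠ f0) (hV : 33 * j + 2 ≤ Fintype.card V) (Q : Type) [Finite Q]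
    (M : BAut (Box.Sym V) Q) (hM : ∀ w, M.Acc w ↔ ¬ Box.RLang s0 f0 w) :
    2 ^ j ≤ 2 * Nat.card Q := by
  obtain ⟨V', hV', s0', f0', hne', hcard, hrec⟩ := tower hS hB j
  obtain ⟨i, hi1, hi2⟩ := Box.exists_embedding (X := V') (Y := V) (by omega) hne' hne
  have hM' : ∀ w, (⟨fun a => M.G (Box.pushSym i a), M.bl, M.br, M.start, M.fin⟩ :
      BAut (Box.Sym V') Q).Acc w ↔ ¬ Box.RLang s0' f0' w := by
    intro w
    have h1 := hM (w.map (Box.pushSym i))
    unfold BAut.Acc Box.RLang at h1 ⊢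
    rw [List.map_map] at h1
    have h2 : (fun a => M.G (Box.pushSym i a)) = M.G ∘ Box.pushSym i := rfl
    simp only [h2]
    rw [h1, ← hi1, ← hi2, ← Set.image_singleton, Box.pushSym_acts, i.injective.mem_set_image]
  obtain ⟨M1, h1, h2⟩ := hT V' s0' f0' Q _ hM'
  exact hrec Q M1 h2 _ h1

/-- Row F: the lower bound. -/
theorem final (hS : StepStmt) (hB : BaseStmt) (hT : TopStmt) (hU : AutStmt) : FinalStmt := by
  intro n j hn
  obtain ⟨k, rfl⟩ : ∃ k, n = k + 3 := ⟨n - 3, by omega⟩
  refine ⟨Box.Sym (Fin (k + 2)), inferInstance, Box.RAut k, Box.RAut_oneWay k, ?_⟩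
  intro s B hBeq
  obtain ⟨M, hM⟩ := hU _ s B
  have h1 := lin_LB hS hB hT (j + 2) (Fin (k + 2)) 0 1 (by
    intro h
    have h1 := congrArg Fin.val h
    simp at h1) (by rw [Fintype.card_fin]; omega) (Option (Fin s)) M
    (fun w => by rw [hM, hBeq, Box.RAut_accepts])
  rw [Nat.card_eq_fintype_card, Fintype.card_option, Fintype.card_fin, pow_add] at h1
  have h2 : 0 < 2 ^ j := by positivity
  omega

end Vale.Agent.P343.H744
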