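import Vale.Agent.P343.H744.Main
import Mathlib.Data.Fintype.Powerset

/-!
The subset construction: every one-way nondeterministic automaton with `n` states has an
equivalent (one-way) deterministic automaton with `2 ^ n + 1` states.
-/

namespace Vale.Agent.P343.H744

open Vale.Agent.P343 Vale.Agent.P343.Box

section Transport

variable {α σ σ' : Type}

/-- Renaming of the states. -/
def transport (e : σ ≃ σ') (A : TwoNFA α σ) : TwoNFA α σ' where
  start := e A.start
  accept := {q | e.symm q ∈ A.accept}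
  step p t q mv := A.step (e.symm p) t (e.symm q) mv
  not_beyond_left _ _ := A.not_beyond_left _ _
  not_beyond_right _ _ := A.not_beyond_right _ _

theorem transport_deterministic (e : σ ≃ σ') {A : TwoNFA α σ} (hA : A.Deterministic) :
    (transport e A).Deterministic := by
  intro p a q q' mv mv' h h'
  obtain ⟨h1, h2⟩ := hA _ _ _ _ _ _ h h'
  exact ⟨e.symm.injective h1, h2⟩

theorem transport_oneWay (e : σ ≃ σ') {A : TwoNFA α σ} (hA : A.OneWay) :
    (transport e A).OneWay := fun _ _ _ h => hA _ _ _ h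

theorem transport_accepts (e : σ ≃ σ') (A : TwoNFA α σ) (w : List α) :
    (transport e A).Accepts w ↔ A.Accepts w := by
  constructor
  · rintro ⟨i, q, h, hq⟩
    refine ⟨i, e.symm q, ?_, hq⟩
    have h1 := Relation.ReflTransGen.lift (r := (transport e A).Next w) (p := A.Next w)
      (fun c : ℕ × σ' => (c.1, e.symm c.2)) (by
        rintro _ _ (⟨i, p, q, h⟩ | ⟨i, p, q, h⟩ | ⟨i, p, q, h⟩)
        · exact TwoNFA.Next.left _ _ _ h
        · exact TwoNFA.Next.stay _ _ _ h
        · exact TwoNFA.Next.right _ _ _ h) _ _ h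
    simpa [transport, Function.onFun] using h1
  · rintro ⟨i, q, h, hq⟩
    refine ⟨i, e q, ?_, ?_⟩
    · have h1 := Relation.ReflTransGen.lift (r := A.Next w) (p := (transport e A).Next w)
        (fun c : ℕ × σ => (c.1, e c.2)) (by
          rintro _ _ (⟨i, p, q, h⟩ | ⟨i, p, q, h⟩ | ⟨i, p, q, h⟩)
          · exact TwoNFA.Next.left _ _ _ (by simpa [transport] using h)
          · exact TwoNFA.Next.stay _ _ _ (by simpa [transport] using h)
          · exact TwoNFA.Next.right _ _ _ (by simpa [transport] using h)) _ _ h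
      simpa [transport] using h1
    · simpa [transport] using hq

end Transport

section Subset

variable {α σ : Type}

/-- The states reachable by stationary moves on the symbol `t`. -/
def cl (A : TwoNFA α σ) (t : TapeSym α) (S : Set σ) : Set σ :=
  {q | ∃ p ∈ S, Relation.ReflTransGen (fun p q => A.step p t q Move.stay) p q}

/-- The states in which the next cell is entered. -/
def nxt (A : TwoNFA α σ) (t : TapeSym α) (S : Set σ) : Set σ :=
  {q | ∃ p ∈ cl A t S, A.step p t q Move.right}

/-- The sets of states in which the cells are entered. -/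
def ent (A : TwoNFA α σ) (w : List α) : ℕ → Set σ
  | 0 => {A.start}
  | i + 1 => nxt A (tape w i) (ent A w i)

/-- Acceptance inside a cell. -/
def hit (A : TwoNFA α σ) (t : TapeSym α) (S : Set σ) : Prop := ∃ x ∈ cl A t S, x ∈ A.accept

/-- The subset automaton. -/
def sub (A : TwoNFA α σ) : TwoNFA α (Option (Set σ)) where
  start := some {A.start}
  accept := {none}
  step p t q mv := ∃ S, p = some S ∧ ((hit A t S ∧ q = none ∧ mv = Move.stay) ∨
    (¬ hit A t S ∧ t ≠ TapeSym.rightEnd ∧ q = some (nxt A t S) ∧ mv = Move.right))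
  not_beyond_left := by
    rintro p q ⟨S, _, ⟨_, _, h⟩ | ⟨_, _, _, h⟩⟩ <;> cases h
  not_beyond_right := by
    rintro p q ⟨S, _, ⟨_, _, h⟩ | ⟨_, h, _⟩⟩
    · cases h
    · exact h rfl

theorem sub_deterministic (A : TwoNFA α σ) : (sub A).Deterministic := by
  rintro p a q q' mv mv' ⟨S, h1, h2⟩ ⟨S', h1', h2'⟩
  rw [h1] at h1'
  have h3 := Option.some_injective _ h1'
  subst h3
  rcases h2 with ⟨h2, h3, h4⟩ | ⟨h2, _, h3, h4⟩ <;>
    rcases h2' with ⟨h2', h3', h4'⟩ | ⟨h2', _, h3', h4'⟩
  · exact ⟨h3.trans h3'.symm, h4.trans h4'.symm⟩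
  · exact absurd h2 h2'
  · exact absurd h2' h2
  · exact ⟨h3.trans h3'.symm, h4.trans h4'.symm⟩

theorem ent_subset_cl (A : TwoNFA α σ) (t : TapeSym α) (S : Set σ) : S ⊆ cl A t S :=
  fun x hx => ⟨x, hx, Relation.ReflTransGen.refl⟩

theorem reach_mem {A : TwoNFA α σ} (hA : A.OneWay) {w : List α} {c : ℕ × σ}
    (h : Relation.ReflTransGen (A.Next w) (0, A.start) c) :
    c.2 ∈ cl A (tape w c.1) (ent A w c.1) := by
  induction h with
  | refl => exact ent_subset_cl _ _ _ rfl
  | tail _ h1 ih =>
    cases h1 with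
    | left i p q h => exact absurd h (hA _ _ _)
    | stay i p q h =>
      obtain ⟨x, hx, h2⟩ := ih
      exact ⟨x, hx, h2.tail h⟩
    | right i p q h => exact ent_subset_cl _ _ _ ⟨p, ih, h⟩

theorem cl_reach {A : TwoNFA α σ} {w : List α} {i : ℕ}
    (h : ∀ p ∈ ent A w i, Relation.ReflTransGen (A.Next w) (0, A.start) (i, p)) :
    ∀ q ∈ cl A (tape w i) (ent A w i),
      Relation.ReflTransGen (A.Next w) (0, A.start) (i, q) := by
  rintro q ⟨p, hp, h1⟩
  refine (h p hp).trans ?_
  exact Relation.ReflTransGen.lift (fun x => (i, x)) (fun a b h2 => TwoNFA.Next.stay _ _ _ h2) _ _ h1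

theorem ent_reach (A : TwoNFA α σ) (w : List α) (i : ℕ) :
    ∀ p ∈ ent A w i, Relation.ReflTransGen (A.Next w) (0, A.start) (i, p) := by
  induction i with
  | zero =>
    rintro p hp
    have h1 : p = A.start := hp
    rw [h1]
  | succ i ih =>
    rintro q ⟨p, hp, h1⟩
    exact (cl_reach ih p hp).tail (TwoNFA.Next.right _ _ _ h1)

theorem tape_ne {w : List α} {i : ℕ} (h : i ≤ w.length) : tape w i ≠ TapeSym.rightEnd := by
  unfold tape
  split_ifs with h1 h2
  · simp
  · simp
  · omega

theorem tape_eq {w : List α} {i : ℕ} (h : w.length < i) : tape w i = TapeSym.rightEnd := by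
  unfold tape
  split_ifs with h1 h2
  · omega
  · omega
  · rfl

theorem sub_run (A : TwoNFA α σ) (w : List α) (i : ℕ) (hi : i ≤ w.length + 1)
    (h : ∀ j < i, ¬ hit A (tape w j) (ent A w j)) :
    Relation.ReflTransGen ((sub A).Next w) (0, (sub A).start) (i, some (ent A w i)) := by
  induction i with
  | zero => exact Relation.ReflTransGen.refl
  | succ i ih =>
    refine (ih (by omega) (fun j hj => h j (by omega))).tail (TwoNFA.Next.right _ _ _ ?_)
    exact ⟨_, rfl, Or.inr ⟨h i (by omega), tape_ne (by omega), rfl, rfl⟩⟩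

theorem sub_path (A : TwoNFA α σ) (w : List α) {c : ℕ × Option (Set σ)}
    (h : Relation.ReflTransGen ((sub A).Next w) (0, (sub A).start) c) :
    c.2 = some (ent A w c.1) ∨ (c.2 = none ∧ hit A (tape w c.1) (ent A w c.1)) := by
  induction h with
  | refl => exact Or.inl rfl
  | tail _ h1 ih =>
    cases h1 with
    | left i p q h =>
      obtain ⟨S, _, ⟨_, _, h⟩ | ⟨_, _, _, h⟩⟩ := h <;> cases h
    | stay i p q h =>
      obtain ⟨S, h2, ⟨h3, h4, _⟩ | ⟨_, _, _, h⟩⟩ := h
      · rcases ih with h5 | ⟨h5, _⟩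
        · have h6 := Option.some_injective _ (h2.symm.trans h5)
          subst h6
          exact Or.inr ⟨h4, h3⟩
        · have h7 : p = none := h5
          rw [h2] at h7
          cases h7
      · cases h
    | right i p q h =>
      obtain ⟨S, h2, ⟨_, _, h⟩ | ⟨_, _, h4, _⟩⟩ := h
      · cases h
      · rcases ih with h5 | ⟨h5, _⟩
        · have h6 := Option.some_injective _ (h2.symm.trans h5)
          subst h6
          exact Or.inl h4
        · have h7 : p = none := h5
          rw [h2] at h7
          cases h7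

theorem sub_equivalent {A : TwoNFA α σ} (hA : A.OneWay) : Equivalent A (sub A) := by
  classical
  intro w
  constructor
  · rintro ⟨i, q, h1, h2⟩
    have h3 : ∃ i, hit A (tape w i) (ent A w i) := ⟨i, q, reach_mem hA h1, h2⟩
    have h4 := Nat.find_spec h3
    have h5 : Nat.find h3 ≤ w.length + 1 := by
      by_contra h6
      push Not at h6
      obtain ⟨k, hk⟩ : ∃ k, Nat.find h3 = k + 1 := ⟨Nat.find h3 - 1, by omega⟩
      obtain ⟨x, ⟨y, hy, _⟩, _⟩ := h4
      rw [hk] at hy
      obtain ⟨z, _, hz⟩ := (hy : y ∈ nxt A (tape w k) (ent A w k))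
      rw [tape_eq (by omega)] at hz
      exact A.not_beyond_right _ _ hz
    refine ⟨Nat.find h3, none, (sub_run A w _ h5 (fun j hj => Nat.find_min h3 hj)).tail
      (TwoNFA.Next.stay _ _ _ ?_), rfl⟩
    exact ⟨_, rfl, Or.inl ⟨h4, rfl, rfl⟩⟩
  · rintro ⟨i, q, h1, h2⟩
    have h3 : q = none := h2
    subst h3
    rcases sub_path A w h1 with h4 | ⟨_, x, hx, hacc⟩
    · cases h4
    · exact ⟨i, x, cl_reach (ent_reach A w i) x hx, hacc⟩

end Subset

/-- The subset construction. -/
theorem subset_upper (α : Type) (n : ℕ) (A : TwoNFA α (Fin n)) (hA : A.OneWay) :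
    ∃ B : TwoNFA α (Fin (2 ^ n + 1)), B.Deterministic ∧ Equivalent A B := by
  classical
  have hcard : Fintype.card (Option (Set (Fin n))) = 2 ^ n + 1 := by
    rw [Fintype.card_option, Fintype.card_set, Fintype.card_fin]
  let e := Fintype.equivFinOfCardEq hcard
  refine ⟨transport e (sub A), transport_deterministic e (sub_deterministic A), fun w => ?_⟩
  rw [transport_accepts]
  exact sub_equivalent hA w

end Vale.Agent.P343.H744
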