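import Vale.Agent.P343.H744.Defs
import Vale.Agent.P343.H744.Upper

/-!
Every two-way deterministic automaton for one-way liveness on `h` points has exponentially many
(in `h`) states.
-/

namespace Vale.Agent.P343.H744

open Vale.Agent.P343 Vale.Agent.P343.Box

/-- Paths through a list of bipartite graphs. -/
def Path {h : ℕ} : List (Fin h → Fin h → Bool) → Fin h → Fin h → Prop :=
  Reach (fun g x y => g x y = true)

theorem live_iff {h : ℕ} (w : List (Fin h → Fin h → Bool)) : Live w ↔ ∃ x y, Path w x y := by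
  induction w with
  | nil =>
    constructor
    · rintro ⟨x, _⟩
      exact ⟨x 0, x 0, rfl⟩
    · rintro ⟨x, y, _⟩
      exact ⟨fun _ => x, fun i hi => by simp at hi⟩
  | cons g w _ =>
    have key : ∀ (w : List (Fin h → Fin h → Bool)) (a : Fin h), (∃ y, Path w a y) ↔
        ∃ x : ℕ → Fin h, x 0 = a ∧ ∀ (i : ℕ) (hi : i < w.length), w[i] (x i) (x (i + 1)) = true := by
      intro w
      induction w with
      | nil =>
        intro a
        exact ⟨fun _ => ⟨fun _ => a, rfl, fun i hi => by simp at hi⟩, fun _ => ⟨a, rfl⟩⟩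
      | cons g w ih =>
        intro a
        constructor
        · rintro ⟨y, z, h1, h2⟩
          obtain ⟨x, hx0, hx⟩ := (ih z).1 ⟨y, h2⟩
          refine ⟨fun i => Nat.casesOn i a x, rfl, ?_⟩
          intro i hi
          cases i with
          | zero =>
            show g a (x 0) = true
            rw [hx0]
            exact h1
          | succ i => exact hx i (by simpa using hi)
        · rintro ⟨x, hx0, hx⟩
          obtain ⟨y, hy⟩ := (ih (x 1)).2 ⟨fun i => x (i + 1), rfl, fun i hi =>
            hx (i + 1) (by simpa using hi)⟩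
          refine ⟨y, x 1, ?_, hy⟩
          have h1 := hx 0 (by simp)
          rw [hx0] at h1
          exact h1
    constructor
    · rintro ⟨x, hx⟩
      obtain ⟨y, hy⟩ := (key (g :: w) (x 0)).2 ⟨x, rfl, hx⟩
      exact ⟨_, y, hy⟩
    · rintro ⟨a, y, hy⟩
      obtain ⟨x, _, hx⟩ := (key (g :: w) a).1 ⟨y, hy⟩
      exact ⟨x, hx⟩

/-- The graph of a track letter. -/
def graph {h : ℕ} (a : Sym (Fin h)) (x y : Fin h) : Bool :=
  (decide (y = x) || (a.src x && a.dst y)) && a.keep y

theorem path_graph {h : ℕ} (w : List (Sym (Fin h))) : ∀ x y,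
    Path (w.map graph) x y ↔ y ∈ acts w {x} := by
  induction w with
  | nil => intro x y; exact Iff.rfl
  | cons a w ih =>
    intro x y
    constructor
    · rintro ⟨z, h1, h2⟩
      have h3 := (ih z y).1 h2
      show y ∈ acts w (a.act {x})
      refine acts_mono w ?_ h3
      rintro _ rfl
      simp only [graph, Bool.and_eq_true, Bool.or_eq_true, decide_eq_true_eq] at h1
      refine ⟨?_, h1.2⟩
      rcases h1.1 with h4 | ⟨h4, h5⟩
      · exact Or.inl h4
      · exact Or.inr ⟨h5, x, rfl, h4⟩
    · intro h1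
      obtain ⟨z, ⟨h2, h3⟩, h4⟩ := acts_single (S := a.act {x}) w h1
      refine ⟨z, ?_, (ih z y).2 h4⟩
      simp only [graph, Bool.and_eq_true, Bool.or_eq_true, decide_eq_true_eq]
      refine ⟨?_, h3⟩
      rcases h2 with h2 | ⟨h2, x', hx', h5⟩
      · exact Or.inl h2
      · have h6 : x' = x := hx'
        subst h6
        exact Or.inr ⟨h5, h2⟩

/-- The lower bound for liveness. -/
theorem liveness_lower (h j s : ℕ) (hh : 17 * j + 19 ≤ h)
    (B : TwoNFA (Fin h → Fin h → Bool) (Fin s)) (hB : B.Deterministic)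
    (hlive : ∀ w, B.Accepts w ↔ Live w) : 2 ^ j ≤ s := by
  have hne : (⟨0, by omega⟩ : Fin h) ≠ ⟨1, by omega⟩ := by
    intro h
    have h1 := congrArg Fin.val h
    simp at h1
  have hLB := lin_LB lin_words (j + 1) (Fin h) ⟨0, by omega⟩ ⟨1, by omega⟩ hne
    (by rw [Fintype.card_fin]; omega)
  let only : Fin h → Fin h → Fin h → Bool := fun c x y => decide (x = c) && decide (y = c)
  have h1 := hLB (Fin s) ⟨fun a => cell B (TapeSym.letter (graph a)),
    cell B TapeSym.leftEnd * cell B (TapeSym.letter (only ⟨0, by omega⟩)),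
    cell B (TapeSym.letter (only ⟨1, by omega⟩)) * cell B TapeSym.rightEnd, B.start⟩
  rw [Fintype.card_fin] at h1
  apply h1
  intro w
  have h2 : B.Accepts ([only ⟨0, by omega⟩] ++ w.map graph ++ [only ⟨1, by omega⟩]) ↔
      RLang (⟨0, by omega⟩ : Fin h) ⟨1, by omega⟩ w := by
    rw [hlive, live_iff]
    constructor
    · rintro ⟨x, y, hxy⟩
      obtain ⟨r, h3, z, h4, h5⟩ := (reach_append _ _ _ _ _).1 hxy
      obtain ⟨t, ⟨t', h6, h7⟩, h8⟩ := (reach_append _ _ _ _ _).1 h3
      simp only [only, Bool.and_eq_true, decide_eq_true_eq] at h4 h6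
      have h9 : t = t' := h7
      rw [h9, h6.2] at h8
      rw [h4.1] at h8
      exact (path_graph w _ _).1 h8
    · intro h3
      refine ⟨⟨0, by omega⟩, ⟨1, by omega⟩, (reach_append _ _ _ _ _).2 ⟨⟨1, by omega⟩,
        (reach_append _ _ _ _ _).2 ⟨⟨0, by omega⟩, ⟨⟨0, by omega⟩, by simp [only], rfl⟩,
          (path_graph w _ _).2 h3⟩, ⟨⟨1, by omega⟩, by simp [only], rfl⟩⟩⟩
  rw [← h2, accepts_iff_box hB]
  unfold BA.Acc
  rw [List.map_append, List.map_append, List.prod_append, List.prod_append, List.map_map]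
  simp only [List.map_cons, List.map_nil, List.prod_cons, List.prod_nil, mul_one, mul_assoc]
  exact Iff.rfl

/-- The transitions of the small automaton for liveness. -/
def liveStep {h : ℕ} (p : Option (Fin h)) :
    TapeSym (Fin h → Fin h → Bool) → Option (Fin h) → Move → Prop
  | TapeSym.leftEnd, q, mv => mv = Move.right ∧ ∃ x, q = some x
  | TapeSym.letter g, q, mv => mv = Move.right ∧ ∃ x y, p = some x ∧ q = some y ∧ g x y = true
  | TapeSym.rightEnd, q, mv => mv = Move.stay ∧ (∃ x, p = some x) ∧ q = none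

/-- The small automaton for liveness. -/
def liveAut {h : ℕ} (hh : 0 < h) : TwoNFA (Fin h → Fin h → Bool) (Option (Fin h)) where
  start := some ⟨0, hh⟩
  accept := {none}
  step := liveStep
  not_beyond_left := by
    rintro p q ⟨h, _⟩
    cases h
  not_beyond_right := by
    rintro p q ⟨h, _⟩
    cases h

theorem liveAut_oneWay {h : ℕ} (hh : 0 < h) : (liveAut hh).OneWay := by
  intro p a q h
  cases a with
  | leftEnd => obtain ⟨h, _⟩ := (h : _ ∧ _); cases h
  | rightEnd => obtain ⟨h, _⟩ := (h : _ ∧ _); cases h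
  | letter a => obtain ⟨h, _⟩ := (h : _ ∧ _); cases h

theorem liveAut_run {h : ℕ} (hh : 0 < h) (v : List (Fin h → Fin h → Bool)) :
    ∀ (u : List (Fin h → Fin h → Bool)) (x y : Fin h), Path v x y →
      ∃ i, Relation.ReflTransGen ((liveAut hh).Next (u ++ v)) (u.length + 1, some x)
        (i, none) := by
  induction v with
  | nil =>
    intro u x y _
    refine ⟨u.length + 1, Relation.ReflTransGen.single (TwoNFA.Next.stay _ _ _ ?_)⟩
    rw [List.append_nil, tape_end]
    exact ⟨rfl, ⟨x, rfl⟩, rfl⟩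
  | cons a v ih =>
    rintro u x y ⟨z, h1, h2⟩
    obtain ⟨i, h4⟩ := ih (u ++ [a]) z y h2
    refine ⟨i, Relation.ReflTransGen.head (b := (u.length + 1 + 1, some z)) ?_ ?_⟩
    · apply TwoNFA.Next.right
      rw [tape_app]
      exact ⟨rfl, x, z, rfl, rfl, h1⟩
    · simpa using h4

theorem liveAut_path {h : ℕ} (hh : 0 < h) {w : List (Fin h → Fin h → Bool)}
    {c : ℕ × Option (Fin h)} {i : ℕ}
    (hr : Relation.ReflTransGen ((liveAut hh).Next w) c (i, none)) :
    ∀ u v x, w = u ++ v → c = (u.length + 1, some x) → ∃ y, Path v x y := by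
  induction hr using Relation.ReflTransGen.head_induction_on with
  | refl =>
    intro u v x _ hc
    cases (Prod.mk.inj hc).2
  | head h1 _ ih =>
    intro u v x hw hc
    subst hc
    cases v with
    | nil => exact ⟨x, rfl⟩
    | cons g v =>
      cases h1 with
      | left t p q h => exact absurd h (liveAut_oneWay hh _ _ _)
      | stay t p q h =>
        rw [hw, tape_app] at h
        obtain ⟨h, _⟩ := (h : _ ∧ _)
        cases h
      | right t p q h =>
        rw [hw, tape_app] at h
        obtain ⟨_, x', z, h2, rfl, h3⟩ := h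
        cases h2
        obtain ⟨y, hy⟩ := ih (u ++ [g]) v z (by rw [hw]; simp) (by simp)
        exact ⟨y, z, h3, hy⟩

/-- A small one-way nondeterministic automaton for liveness. -/
theorem liveness_upper (h : ℕ) (hh : 0 < h) :
    ∃ A : TwoNFA (Fin h → Fin h → Bool) (Fin (h + 1)), A.OneWay ∧ ∀ w, A.Accepts w ↔ Live w := by
  have hcard : Fintype.card (Option (Fin h)) = h + 1 := by
    rw [Fintype.card_option, Fintype.card_fin]
  let e := Fintype.equivFinOfCardEq hcard
  refine ⟨transport e (liveAut hh), transport_oneWay e (liveAut_oneWay hh), fun w => ?_⟩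
  rw [transport_accepts, live_iff]
  constructor
  · rintro ⟨i, q, h1, h2⟩
    have h3 : q = none := h2
    subst h3
    rw [Relation.ReflTransGen.cases_head_iff] at h1
    rcases h1 with h1 | ⟨c, h3, h4⟩
    · cases (Prod.mk.inj h1).2
    · obtain ⟨j, r⟩ := c
      generalize hc0 : ((0 : ℕ), (liveAut hh).start) = c0 at h3
      cases h3 with
      | left t p q' h5 => exact absurd h5 (liveAut_oneWay hh _ _ _)
      | stay t p q' h5 =>
        obtain ⟨h6, h7⟩ := Prod.mk.inj hc0
        subst h6
        rw [tape_zero] at h5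
        obtain ⟨h, _⟩ := (h5 : _ ∧ _)
        cases h
      | right t p q' h5 =>
        obtain ⟨h6, h7⟩ := Prod.mk.inj hc0
        subst h6
        rw [tape_zero] at h5
        obtain ⟨_, x, rfl⟩ := (h5 : _ ∧ _)
        obtain ⟨y, hy⟩ := liveAut_path hh h4 [] w x rfl rfl
        exact ⟨x, y, hy⟩
  · rintro ⟨x, y, hxy⟩
    obtain ⟨i, h1⟩ := liveAut_run hh w [] x y hxy
    refine ⟨i, none, Relation.ReflTransGen.head ?_ h1, rfl⟩
    apply TwoNFA.Next.right
    rw [tape_zero]
    exact ⟨rfl, x, rfl⟩

end Vale.Agent.P343.H744
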