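import Vale.Agent.P343.H744.Main
import Vale.Agent.P343.H744.Top

/-!
Complementation over every alphabet with at least two letters.
-/

namespace Vale.Agent.P343.H744

open Vale.Agent.P343 Vale.Agent.P343.H741 Vale.Agent.P343.Box

/-- The lower bound for box automata. -/
def TowerStmt : Prop :=
  ∀ (j : ℕ) (V : Type) [Fintype V] (s0 f0 : V), s0 ≠ f0 → 33 * j + 2 ≤ Fintype.card V →
    ∀ (Q : Type) [Finite Q] (M : BAut (Box.Sym V) Q),
      (∀ w, M.Acc w ↔ ¬ Box.RLang s0 f0 w) → 2 ^ j ≤ 2 * Nat.card Q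

theorem towerStmt (hS : StepStmt) (hB : BaseStmt) : TowerStmt :=
  fun j V _ s0 f0 hne hV Q _ M hM => lin_LB hS hB top j V s0 f0 hne hV Q M hM

theorem prod_flat' {A B P : Type} [Monoid P] (G : B → P) (f : A → List B) (w : List A) :
    ((w.flatMap f).map G).prod = (w.map fun s => ((f s).map G).prod).prod := by
  induction w with
  | nil => rfl
  | cons a w ih =>
    rw [List.flatMap_cons, List.map_append, List.prod_append, ih, List.map_cons, List.prod_cons]

/-- The lower bound for languages that encode the tracks. -/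
theorem compl_of_code (hW : TowerStmt) (hU : AutStmt) {V β : Type} [Fintype V] {s0 f0 : V}
    (hne : s0 ≠ f0) {j : ℕ} (hV : 33 * (j + 2) + 2 ≤ Fintype.card V) (L : List β → Prop)
    (enc : Sym V → List β) (hL : ∀ w, L (w.flatMap enc) ↔ RLang s0 f0 w) {s : ℕ}
    (B : TwoNFA β (Fin s)) (hB : ∀ w, B.Accepts w ↔ ¬ L w) : 2 ^ j ≤ s := by
  obtain ⟨M, hM⟩ := hU _ s B
  have h1 := hW (j + 2) V s0 f0 hne hV (Option (Fin s))
    ⟨fun a => ((enc a).map M.G).prod, M.bl, M.br, M.start, M.fin⟩ (fun w => by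
      have h2 := hM (w.flatMap enc)
      rw [hB, hL] at h2
      unfold BAut.Acc at h2 ⊢
      rw [prod_flat'] at h2
      exact h2)
  rw [Nat.card_eq_fintype_card, Fintype.card_option, Fintype.card_fin, pow_add] at h1
  have h2 : 0 < 2 ^ j := by positivity
  omega

/-- Row XB: over every alphabet with at least two letters, the complements of the languages of
one-way nondeterministic automata with `n` states can need exponentially many (in `n`) states in
every two-way nondeterministic automaton. -/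
theorem nontrivial_compl (hW : TowerStmt) (hU : AutStmt) (α : Type) [Nontrivial α] (n j : ℕ)
    (hn : 33 * j + 80 ≤ n) :
    ∃ A : TwoNFA α (Fin n), A.OneWay ∧
      ∀ (s : ℕ) (B : TwoNFA α (Fin s)), (∀ w, B.Accepts w ↔ ¬ A.Accepts w) → 2 ^ j ≤ s := by
  obtain ⟨a, b, hab⟩ := exists_pair_ne α
  obtain ⟨f, hf⟩ : ∃ f : Bool → α, Function.Injective f := by
    refine ⟨fun t => if t then a else b, ?_⟩
    intro s t h
    cases s <;> cases t <;> simp at h ⊢
    · exact hab h.symm
    · exact hab h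
  obtain ⟨p, hp, hp1, hp2⟩ : ∃ p : ℕ, p.Coprime 5 ∧ 33 * j + 69 ≤ p ∧ p ≤ 33 * j + 70 := by
    have h5 : Nat.Prime 5 := by norm_num
    by_cases h : 5 ∣ 33 * j + 69
    · refine ⟨33 * j + 70, ?_, by omega, le_rfl⟩
      exact ((Nat.Prime.coprime_iff_not_dvd h5).2 (by omega)).symm
    · exact ⟨33 * j + 69, ((Nat.Prime.coprime_iff_not_dvd h5).2 h).symm, le_rfl, by omega⟩
  have : NeZero p := ⟨by omega⟩
  obtain ⟨g⟩ : Nonempty (Option (Fin (33 * j + 68)) ↪ ZMod p) := by
    apply Function.Embedding.nonempty_of_card_le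
    rw [Fintype.card_option, Fintype.card_fin, ZMod.card]
    omega
  have hδ := fun a => (letters hp g a).rename hf
  choose enc henc using hδ
  obtain ⟨e⟩ : Nonempty (Option (Pl p) ↪ Fin n) := by
    apply Function.Embedding.nonempty_of_card_le
    rw [Fintype.card_option, Fintype.card_sum, ZMod.card, ZMod.card, Fintype.card_fin]
    omega
  have hne : (⟨0, by omega⟩ : Fin (33 * j + 68)) ≠ ⟨1, by omega⟩ := by
    intro h
    have h1 := congrArg Fin.val h
    simp at h1
  refine ⟨aut (rename f (dl p)) (Sum.inl (g (some ⟨0, by omega⟩)))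
    (Sum.inl (g (some ⟨1, by omega⟩))) e, aut_oneWay _ _ _ _, ?_⟩
  intro s B hB
  refine compl_of_code hW hU hne (by rw [Fintype.card_fin]; omega)
    (fun w => Reach (rename f (dl p)) w (Sum.inl (g (some ⟨0, by omega⟩)))
      (Sum.inl (g (some ⟨1, by omega⟩)))) enc ?_ B (fun w => ?_)
  · intro w
    rw [coding (ι := fun v => Sum.inl (g (some v))) henc w]
    constructor
    · rintro ⟨y, h1, h2⟩
      have h3 := Option.some_injective _ (g.injective (Sum.inl_injective h1))
      rw [← h3] at h2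
      exact h2
    · intro h1
      exact ⟨_, rfl, h1⟩
  · rw [hB, aut_accepts e.injective]

/-- No polynomial bounds the cost of complementation over a fixed alphabet with at least two
letters. -/
theorem nontrivial_compl_no_polynomial (hW : TowerStmt) (hU : AutStmt) (α : Type)
    [Nontrivial α] :
    ¬ ∃ p : Polynomial ℝ, ∀ (n : ℕ) (A : TwoNFA α (Fin n)), A.OneWay →
      ∃ s : ℕ, (s : ℝ) ≤ p.eval (n : ℝ) ∧
        ∃ B : TwoNFA α (Fin s), ∀ w, B.Accepts w ↔ ¬ A.Accepts w := by
  rintro ⟨p, hp⟩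
  obtain ⟨j, hj⟩ := poly_lt_two_pow
    (p.comp (Polynomial.C 33 * Polynomial.X + Polynomial.C 80))
  obtain ⟨A, hA, hlow⟩ := nontrivial_compl hW hU α (33 * j + 80) j le_rfl
  obtain ⟨s, hs, B, hB⟩ := hp _ A hA
  have h1 : ((2 : ℝ) ^ j) ≤ s := by exact_mod_cast hlow s B hB
  have h2 : (p.comp (Polynomial.C 33 * Polynomial.X + Polynomial.C 80)).eval (j : ℝ) =
      p.eval ((33 * j + 80 : ℕ) : ℝ) := by
    rw [Polynomial.eval_comp]
    simp only [Polynomial.eval_add, Polynomial.eval_mul, Polynomial.eval_C,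
      Polynomial.eval_X, Nat.cast_add, Nat.cast_mul, Nat.cast_ofNat]
  rw [h2] at hj
  linarith

end Vale.Agent.P343.H744
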