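import Vale.Agent.P343.Defs

namespace Vale.Agent.P343.H744

/-- One-way liveness on `h` points (Sakoda and Sipser): a letter is a bipartite graph from `h`
left points to `h` right points, and a word `g₀ g₁ ...` is live if some path runs through all its
graphs. -/
def Live {h : ℕ} (w : List (Fin h → Fin h → Bool)) : Prop :=
  ∃ x : ℕ → Fin h, ∀ (i : ℕ) (hi : i < w.length), w[i] (x i) (x (i + 1)) = true

end Vale.Agent.P343.H744
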